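import Vale.Agent.P112.Bdl.B5

/-!
# P112: truncated transforms of square integrable functions, crude bounds
-/

namespace Vale.Agent.N112

open Vale.Agent.P112 MeasureTheory Filter Topology Set
open scoped ENNReal NNReal

variable {v : Plane → Plane}

theorem sq_eLp (F : Plane → ℂ) : eLpNorm F 2 volume ^ 2 = l2sq F := by
  have := eLpNorm_nnreal_pow_eq_lintegral (f := F) (μ := volume) (p := 2) two_ne_zero
  simpa [l2sq] using this

theorem eLp_le {F G : Plane → ℂ} {A : ℝ≥0∞} (h : l2sq F ≤ A ^ 2 * l2sq G) :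
    eLpNorm F 2 volume ≤ A * eLpNorm G 2 volume := by
  rw [← sq_eLp, ← sq_eLp, ← mul_pow] at h
  exact (ENNReal.pow_right_strictMono two_ne_zero).le_iff_le.1 h

theorem meas_line (hv : Continuous v) {h : Plane → ℂ} (hh : Measurable h) :
    Measurable fun p : Plane × ℝ => h (p.1 - p.2 • v p.1) / (p.2 : ℂ) :=
  (hh.comp (Continuous.measurable (by fun_prop))).div
    (Complex.measurable_ofReal.comp measurable_snd)

theorem meas_trunc (hv : Continuous v) {h : Plane → ℂ} (hh : Measurable h) (ε a : ℝ) :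
    Measurable (truncHilbert v ε a h) :=
  (StronglyMeasurable.integral_prod_right (f := fun (x : Plane) (t : ℝ) => h (x - t • v x) / (t : ℂ))
    (meas_line hv hh).stronglyMeasurable).measurable

theorem crude (hvl : LipschitzWith 1 v) (hvu : ∀ x, ‖v x‖ = 1) {ε a : ℝ} (hε : 0 < ε)
    (ha : a ≤ 1) : ∃ A : ℝ≥0∞, A ≠ ⊤ ∧ ∀ h : Plane → ℂ, Measurable h →
      ∫⁻ x, (∫⁻ t in {t : ℝ | ε < |t| ∧ |t| < a}, ‖h (x - t • v x) / (t : ℂ)‖ₑ) ^ 2 ≤
        A ^ 2 * l2sq h := by
  obtain ⟨w, hw⟩ : ∃ w : ℝ → ℝ≥0∞,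
    w = {t : ℝ | ε < |t| ∧ |t| < a}.indicator fun t => ‖((t : ℂ))⁻¹‖ₑ := ⟨_, rfl⟩
  have hm : Measurable w := hw ▸ (Complex.measurable_ofReal.inv.enorm.indicator
    (measurableSet_shell ε a))
  refine ⟨∫⁻ t, w t * (tailq t)⁻¹, ?_, fun h hh => ?_⟩
  · have h1 : ∫⁻ t, w t * (tailq t)⁻¹ ≤ ∫⁻ t in Ioo (-1 : ℝ) 1, ENNReal.ofReal ε⁻¹ * (tailq t)⁻¹ := by
      rw [← lintegral_indicator measurableSet_Ioo]
      refine lintegral_mono fun t => ?_
      by_cases ht : t ∈ {t : ℝ | ε < |t| ∧ |t| < a}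
      · rw [hw, indicator_of_mem ht, indicator_of_mem (show t ∈ Ioo (-1 : ℝ) 1 from
          abs_lt.1 (ht.2.trans_le ha))]
        refine mul_le_mul_left ?_ _
        rw [← ofReal_norm, norm_inv, Complex.norm_real, Real.norm_eq_abs]
        exact ENNReal.ofReal_le_ofReal (inv_anti₀ hε ht.1.le)
      · rw [hw, indicator_of_notMem ht, zero_mul]
        exact zero_le
    rw [lintegral_const_mul' _ _ ENNReal.ofReal_ne_top] at h1
    exact (h1.trans_lt (ENNReal.mul_lt_top ENNReal.ofReal_lt_top tail_mass_finite)).ne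
  · refine le_trans (le_of_eq ?_) (tail_minkowski hvl hvu w hm (fun t ht => ?_)
      (fun x => ‖h x‖ₑ) hh.enorm)
    · refine lintegral_congr fun x => ?_
      rw [← lintegral_indicator (measurableSet_shell ε a)]
      congr 1
      refine lintegral_congr fun t => ?_
      by_cases ht : t ∈ {t : ℝ | ε < |t| ∧ |t| < a}
      · rw [hw, indicator_of_mem ht, indicator_of_mem ht, div_eq_mul_inv, enorm_mul, mul_comm]
      · rw [hw, indicator_of_notMem ht, indicator_of_notMem ht, zero_mul]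
    · rw [hw, indicator_of_notMem fun h' => by linarith [h'.2]]

theorem ae_int (hvl : LipschitzWith 1 v) (hvu : ∀ x, ‖v x‖ = 1) {ε a : ℝ} (hε : 0 < ε)
    (ha : a ≤ 1) {h : Plane → ℂ} (hh : Measurable h) (h2 : MemLp h 2 volume) :
    ∀ᵐ x : Plane, IntegrableOn (fun t : ℝ => h (x - t • v x) / (t : ℂ))
      {t : ℝ | ε < |t| ∧ |t| < a} := by
  obtain ⟨A, hA, h1⟩ := crude hvl hvu hε ha
  have h3 : A ^ 2 * l2sq h ≠ ⊤ := by
    rw [← sq_eLp]
    exact ENNReal.mul_ne_top (ENNReal.pow_ne_top hA) (ENNReal.pow_ne_top h2.2.ne)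
  have hm := meas_line hvl.continuous hh
  have h4 := ae_lt_top ((hm.enorm.lintegral_prod_right'
    (ν := volume.restrict {t : ℝ | ε < |t| ∧ |t| < a})).pow_const 2)
    (ne_top_of_le_ne_top h3 (h1 h hh))
  filter_upwards [h4] with x hx
  refine ⟨(hm.comp measurable_prodMk_left).aestronglyMeasurable, ?_⟩
  exact lt_top_iff_ne_top.2 fun e => by
    simp only [e] at hx
    simp at hx

theorem crude_eLp (hvl : LipschitzWith 1 v) (hvu : ∀ x, ‖v x‖ = 1) {ε a : ℝ} (hε : 0 < ε)
    (ha : a ≤ 1) : ∃ A : ℝ≥0∞, A ≠ ⊤ ∧ ∀ h : Plane → ℂ, Measurable h →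
      eLpNorm (truncHilbert v ε a h) 2 volume ≤ A * eLpNorm h 2 volume := by
  obtain ⟨A, hA, h1⟩ := crude hvl hvu hε ha
  refine ⟨A, hA, fun h hh => eLp_le (le_trans (lintegral_mono fun x => ?_) (h1 h hh))⟩
  exact pow_le_pow_left' (enorm_integral_le_lintegral_enorm _) 2

/-- Changing a function on a null set changes it on almost no point of almost every line. -/
theorem ae_line (hvl : LipschitzWith 1 v) (hvu : ∀ x, ‖v x‖ = 1) {f g : Plane → ℂ}
    (h : f =ᵐ[volume] g) :
    ∀ᵐ x : Plane, ∀ᵐ t : ℝ, |t| < 1 → f (x - t • v x) = g (x - t • v x) := by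
  obtain ⟨N, hN, hNm, hN0⟩ := exists_measurable_superset_of_null (ae_iff.1 h)
  have hw : Measurable ({t : ℝ | |t| < 1}.indicator fun _ => (1 : ℝ≥0∞)) :=
    measurable_const.indicator (measurableSet_ball0 1)
  have hF : Measurable (N.indicator fun _ => (1 : ℝ≥0∞)) := measurable_const.indicator hNm
  have h1 := tail_minkowski hvl hvu _ hw
    (fun t ht => indicator_of_notMem (s := {t : ℝ | |t| < 1}) (not_lt.2 ht) _) _ hF
  have h2 : ∫⁻ x, (N.indicator (fun _ => (1 : ℝ≥0∞)) x) ^ 2 = 0 := by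
    have : ∀ x, (N.indicator (fun _ => (1 : ℝ≥0∞)) x) ^ 2 = N.indicator (fun _ => 1) x := fun x => by
      by_cases hx : x ∈ N <;> simp [hx]
    rw [lintegral_congr this, lintegral_indicator hNm, setLIntegral_const, hN0, mul_zero]
  have hm : Measurable fun p : Plane × ℝ => {t : ℝ | |t| < 1}.indicator (fun _ => (1 : ℝ≥0∞)) p.2 *
      N.indicator (fun _ => (1 : ℝ≥0∞)) (p.1 - p.2 • v p.1) :=
    (hw.comp measurable_snd).mul (hF.comp (Continuous.measurable
      (by have := hvl.continuous; fun_prop)))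
  rw [h2, mul_zero, nonpos_iff_eq_zero,
    lintegral_eq_zero_iff (hm.lintegral_prod_right'.pow_const 2)] at h1
  filter_upwards [h1] with x hx
  have h3 := (lintegral_eq_zero_iff (hm.comp measurable_prodMk_left)).1
    (pow_eq_zero_iff two_ne_zero |>.1 hx)
  filter_upwards [h3] with t ht h4
  by_contra h5
  have h6 : x - t • v x ∈ N := hN h5
  simp [h6, h4] at ht

theorem trunc_congr {f g : Plane → ℂ} {x : Plane} {ε a : ℝ} (ha : a ≤ 1)
    (h : ∀ᵐ t : ℝ, |t| < 1 → f (x - t • v x) = g (x - t • v x)) :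
    (fun t : ℝ => f (x - t • v x) / (t : ℂ)) =ᵐ[volume.restrict {t : ℝ | ε < |t| ∧ |t| < a}]
      fun t : ℝ => g (x - t • v x) / (t : ℂ) := by
  rw [EventuallyEq, ae_restrict_iff' (measurableSet_shell ε a)]
  filter_upwards [h] with t ht h1
  rw [ht (h1.2.trans_le ha)]

theorem trunc_schwartz (g : SchwartzMap Plane ℂ) {ε a : ℝ} (hε : 0 < ε) (h : ε ≤ a) :
    truncHilbert v ε a g = hilbert v a g - hilbert v ε g := by
  funext x
  rw [Pi.sub_apply, hilbert_sub v g x hε h]
  refine setIntegral_congr_set ?_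
  filter_upwards [Measure.ae_ne volume ε, Measure.ae_ne volume (-ε)] with t h1 h2
  refine propext ⟨fun h => ⟨h.1.le, h.2⟩, fun h => ⟨lt_of_le_of_ne h.1 fun e => ?_, h.2⟩⟩
  rcases abs_cases t with h3 | h3
  · exact h1 (by linarith [h3.1])
  · exact h2 (by linarith [h3.1])

theorem trunc_empty (f : Plane → ℂ) {ε a : ℝ} (h : a ≤ ε) : truncHilbert v ε a f = 0 := by
  funext x
  have : {t : ℝ | ε < |t| ∧ |t| < a} = ∅ := eq_empty_of_forall_notMem fun t ht => by
    linarith [ht.1, ht.2]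
  simp [truncHilbert, this]

theorem meas_hilbert (hvl : LipschitzWith 1 v) (hvu : ∀ x, ‖v x‖ = 1) (g : SchwartzMap Plane ℂ)
    (a : ℝ) : Measurable (hilbert v a g) := by
  obtain ⟨K, hK⟩ := schwartz_lipschitz g
  rw [show hilbert v a g = pvInt v a g from funext fun x => hilbert_eq hK v hvu x a]
  exact final_measurable_pvInt hvl.continuous hK.continuous a

/-- At small scales the transform of a smooth function with compact support is small. -/
theorem small (hvu : ∀ x, ‖v x‖ = 1) (g : SchwartzMap Plane ℂ) (hg : HasCompactSupport g) :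
    Tendsto (fun ε => eLpNorm (hilbert v ε g) 2 volume) (𝓝[>] 0) (𝓝 0) := by
  obtain ⟨K, hK⟩ := schwartz_lipschitz g
  obtain ⟨R, hR⟩ := hg.isCompact.isBounded.subset_closedBall 0
  obtain ⟨D, hD⟩ : ∃ D : ℝ≥0∞, D = volume (Metric.closedBall (0 : Plane) (R + 1)) ^
    (1 / (2 : ℝ≥0∞).toReal) := ⟨_, rfl⟩
  have hD' : D ≠ ⊤ := hD ▸ ENNReal.rpow_ne_top_of_nonneg (by simp) measure_closedBall_lt_top.ne
  have h1 : Tendsto (fun ε : ℝ => ‖(K : ℝ) * (2 * ε)‖ₑ * D) (𝓝[>] 0) (𝓝 0) := by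
    have h2 : Tendsto (fun ε : ℝ => ‖(K : ℝ) * (2 * ε)‖ₑ) (𝓝 0) (𝓝 ‖(K : ℝ) * (2 * 0)‖ₑ) :=
      Continuous.tendsto (by fun_prop) 0
    have h3 := ENNReal.Tendsto.mul_const (b := D) (h2.mono_left (nhdsWithin_le_nhds (s := Ioi 0)))
      (Or.inr hD')
    simpa using h3
  refine tendsto_of_tendsto_of_tendsto_of_le_of_le' tendsto_const_nhds h1
    (Eventually.of_forall fun _ => zero_le) ?_
  filter_upwards [Ioo_mem_nhdsGT one_pos] with ε hε
  refine le_trans (eLpNorm_mono_real (g := (Metric.closedBall (0 : Plane) (R + 1)).indicator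
    fun _ => (K : ℝ) * (2 * ε)) fun x => ?_) (hD ▸ eLpNorm_indicator_const_le _ _)
  rw [hilbert_eq hK v hvu x ε, pvInt]
  by_cases hx : x ∈ Metric.closedBall (0 : Plane) (R + 1)
  · rw [indicator_of_mem hx]
    refine (norm_setIntegral_le_of_norm_le_const (C := K)
      ((measure_mono (ball0_subset ε)).trans_lt measure_Icc_lt_top)
      fun t _ => symm_bound hK x (v x) (hvu x) t).trans (mul_le_mul_of_nonneg_left ?_ K.2)
    refine (measureReal_mono (ball0_subset ε) measure_Icc_lt_top.ne).trans (le_of_eq ?_)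
    rw [Real.volume_real_Icc_of_le (by linarith [hε.1])]
    ring
  · rw [indicator_of_notMem hx]
    rw [mem_closedBall_zero_iff, not_le] at hx
    have h0 : ∀ s : ℝ, |s| < 1 → g (x + s • v x) = 0 := fun s hs => by
      refine image_eq_zero_of_notMem_tsupport fun h => ?_
      have h4 := mem_closedBall_zero_iff.1 (hR h)
      have h5 := norm_sub_le (x + s • v x) (s • v x)
      rw [add_sub_cancel_right, norm_smul, hvu, Real.norm_eq_abs] at h5
      linarith
    rw [setIntegral_eq_zero_of_forall_eq_zero, norm_zero]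
    intro t ht
    have h6 : |t| < 1 := lt_trans ht hε.2
    have h7 := h0 (-t) (by rwa [abs_neg])
    rw [neg_smul, ← sub_eq_add_neg] at h7
    rw [P112.symm, h7, h0 t h6, sub_self, zero_div]

end Vale.Agent.N112
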