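import Vale.Agent.P112.Defs

/-!
# P112: bounds for square integrable functions
-/

namespace Vale.Agent.N112

open Vale.Agent.P112 MeasureTheory Filter Topology

/-- The `L²` norm. -/
noncomputable def norm2 (f : Plane → ℂ) : ENNReal := eLpNorm f 2 volume

/-- For every `ε > 0` the truncated transform `H^ε_{v,a} f` converges absolutely almost
everywhere, is measurable and has norm at most `C ‖f‖₂`; as `ε ↓ 0` it tends in `L²` to a function
of norm at most `C ‖f‖₂`. -/
def TruncBounds (v : Plane → Plane) (C : NNReal) (f : Plane → ℂ) (a : ℝ) : Prop :=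
  (∀ ε : ℝ, 0 < ε →
    (∀ᵐ x : Plane, IntegrableOn (fun t : ℝ => f (x - t • v x) / (t : ℂ))
      {t : ℝ | ε < |t| ∧ |t| < a}) ∧
    AEStronglyMeasurable (truncHilbert v ε a f) volume ∧
    norm2 (truncHilbert v ε a f) ≤ C * norm2 f) ∧
  ∃ g : Plane → ℂ, MemLp g 2 volume ∧ norm2 g ≤ C * norm2 f ∧
    Tendsto (fun ε => norm2 (truncHilbert v ε a f - g)) (𝓝[>] 0) (𝓝 0)

/-- The integral of `f (x - t v(x)) ψ(|t|) / t` over `ε < |t| < 1` converges absolutely for almost
every `x`, and as a function of `x` it has norm at most `D ‖f‖₂`. -/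
def KernelBound (v : Plane → Plane) (D : ENNReal) (f : Plane → ℂ) (ψ : ℝ → ℂ) (ε : ℝ) : Prop :=
  (∀ᵐ x : Plane, IntegrableOn (fun t : ℝ => f (x - t • v x) / (t : ℂ) * ψ |t|)
    {t : ℝ | ε < |t| ∧ |t| < 1}) ∧
  norm2 (fun x => ∫ t in {t : ℝ | ε < |t| ∧ |t| < 1}, f (x - t • v x) / (t : ℂ) * ψ |t|) ≤
    D * norm2 f

end Vale.Agent.N112
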