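import Vale.Agent.N112.Base

/-!
# P112: from Schwartz functions to all square integrable functions
-/

namespace Vale.Agent.N112

open Vale.Agent.P112 MeasureTheory Filter Topology Set
open scoped ENNReal NNReal

variable {v : Plane → Plane} {B : ℝ≥0}

/-- The bound for Schwartz functions. -/
def SB (v : Plane → Plane) (B : ℝ≥0) : Prop :=
  ∀ a : ℝ, 0 < a → a ≤ 1 → ∀ g : SchwartzMap Plane ℂ,
    eLpNorm (hilbert v a g) 2 volume ≤ B * eLpNorm g 2 volume

theorem sb_of {C : ℝ} (hC : 0 ≤ C) (h : ∀ a : ℝ, 0 < a → a ≤ 1 → StrongType v a C) :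
    SB v (√C).toNNReal := fun a h0 h1 g => eLp_le (by
  refine (h a h0 h1 g ⟨g, rfl⟩).trans (le_of_eq ?_)
  rw [← ENNReal.ofReal_coe_nnreal, Real.coe_toNNReal _ (Real.sqrt_nonneg _),
    ← ENNReal.ofReal_pow (Real.sqrt_nonneg _), Real.sq_sqrt hC])

theorem trunc_sub (hvl : LipschitzWith 1 v) (hvu : ∀ x, ‖v x‖ = 1) {ε a : ℝ} (hε : 0 < ε)
    (ha : a ≤ 1) {f g : Plane → ℂ} (hf : Measurable f) (hf2 : MemLp f 2 volume)
    (hg : Measurable g) (hg2 : MemLp g 2 volume) :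
    truncHilbert v ε a f =ᵐ[volume] truncHilbert v ε a (f - g) + truncHilbert v ε a g := by
  filter_upwards [ae_int hvl hvu hε ha (hf.sub hg) (hf2.sub hg2), ae_int hvl hvu hε ha hg hg2]
    with x h1 h2
  simp only [Pi.add_apply, truncHilbert]
  rw [← integral_add h1 h2]
  refine integral_congr_ae (Eventually.of_forall fun t => ?_)
  simp only [Pi.sub_apply]
  ring

theorem unif_schwartz (hvl : LipschitzWith 1 v) (hvu : ∀ x, ‖v x‖ = 1) (hB : SB v B) {ε a : ℝ}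
    (hε : 0 < ε) (ha : a ≤ 1) (g : SchwartzMap Plane ℂ) :
    eLpNorm (truncHilbert v ε a g) 2 volume ≤ 2 * B * eLpNorm g 2 volume := by
  rcases le_total a ε with h | h
  · simp [trunc_empty _ h]
  · rw [trunc_schwartz g hε h, two_mul, add_mul]
    exact (eLpNorm_sub_le (meas_hilbert hvl hvu g a).aestronglyMeasurable
      (meas_hilbert hvl hvu g ε).aestronglyMeasurable one_le_two).trans
      (add_le_add (hB a (hε.trans_le h) ha g) (hB ε hε (h.trans ha) g))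

theorem dense {f : Plane → ℂ} (hf : MemLp f 2 volume) {δ : ℝ} (hδ : 0 < δ) :
    ∃ g : SchwartzMap Plane ℂ, HasCompactSupport g ∧
      eLpNorm (f - ⇑g) 2 volume ≤ ENNReal.ofReal δ := by
  obtain ⟨g, h1, h2, h3⟩ := hf.exist_eLpNorm_sub_le (by norm_num) one_le_two hδ
  exact ⟨h1.toSchwartzMap h2, h1, h3⟩

theorem le_of_small {x y D : ℝ≥0∞} (hD : D ≠ ⊤)
    (h : ∀ δ : ℝ, 0 < δ → x ≤ y + D * ENNReal.ofReal δ) : x ≤ y := by
  have h1 : Tendsto (fun δ : ℝ => ENNReal.ofReal δ) (𝓝[>] 0) (𝓝 0) := by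
    have := (ENNReal.continuous_ofReal.tendsto 0).mono_left (nhdsWithin_le_nhds (s := Ioi 0))
    simpa using this
  have h2 := (ENNReal.Tendsto.const_mul (a := D) h1 (Or.inr hD)).const_add y
  rw [mul_zero, add_zero] at h2
  exact ge_of_tendsto h2 (eventually_nhdsWithin_of_forall h)

theorem unif_meas (hvl : LipschitzWith 1 v) (hvu : ∀ x, ‖v x‖ = 1) (hB : SB v B) {ε a : ℝ}
    (hε : 0 < ε) (ha : a ≤ 1) {f : Plane → ℂ} (hf : Measurable f) (hf2 : MemLp f 2 volume) :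
    eLpNorm (truncHilbert v ε a f) 2 volume ≤ 2 * B * eLpNorm f 2 volume := by
  obtain ⟨A, hA, h1⟩ := crude_eLp hvl hvu hε ha
  refine le_of_small (D := A + 2 * B) (by finiteness) fun δ hδ => ?_
  obtain ⟨g, -, hg⟩ := dense hf2 hδ
  have gm : Measurable g := g.continuous.measurable
  have h2 : eLpNorm g 2 volume ≤ eLpNorm f 2 volume + ENNReal.ofReal δ := by
    have : (g : Plane → ℂ) = f - (f - g) := by simp
    rw [this]
    refine (eLpNorm_sub_le hf2.1 (hf.sub gm).aestronglyMeasurable one_le_two).trans ?_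
    gcongr
  rw [eLpNorm_congr_ae (trunc_sub hvl hvu hε ha hf hf2 gm (g.memLp 2 volume))]
  refine (eLpNorm_add_le (meas_trunc hvl.continuous (hf.sub gm) ε a).aestronglyMeasurable
    (meas_trunc hvl.continuous gm ε a).aestronglyMeasurable one_le_two).trans ?_
  calc _ ≤ A * ENNReal.ofReal δ + 2 * B * (eLpNorm f 2 volume + ENNReal.ofReal δ) :=
        add_le_add ((h1 _ (hf.sub gm)).trans (by gcongr))
          ((unif_schwartz hvl hvu hB hε ha g).trans (by gcongr))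
    _ = _ := by ring

theorem cauchy (hvl : LipschitzWith 1 v) (hvu : ∀ x, ‖v x‖ = 1) (hB : SB v B) {a : ℝ}
    (h0 : 0 < a) (ha : a ≤ 1) {f : Plane → ℂ} (hf : Measurable f) (hf2 : MemLp f 2 volume)
    {r : ℝ≥0∞} (hr : 0 < r) : ∃ s ∈ 𝓝[>] (0 : ℝ), ∀ ε ∈ s, ∀ η ∈ s,
      eLpNorm (truncHilbert v ε a f - truncHilbert v η a f) 2 volume < r := by
  obtain ⟨q, hq0, hq⟩ : ∃ q : ℝ≥0∞, 0 < q ∧ q + q + (q + q) < r := by
    have h1 : Tendsto (fun q : ℝ≥0∞ => q + q + (q + q)) (𝓝[>] 0) (𝓝 (0 + 0 + (0 + 0))) :=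
      (Continuous.tendsto (by fun_prop) 0).mono_left nhdsWithin_le_nhds
    simp only [add_zero] at h1
    obtain ⟨q, h2, h3⟩ := ((h1.eventually (gt_mem_nhds hr)).and self_mem_nhdsWithin).exists
    exact ⟨q, h3, h2⟩
  obtain ⟨δ, hδ, hd⟩ : ∃ δ : ℝ, 0 < δ ∧ 2 * B * ENNReal.ofReal δ ≤ q := by
    by_contra hc
    push Not at hc
    have := le_of_small (x := q) (y := 0) (D := 2 * B) (by finiteness) fun δ hδ => by
      rw [zero_add]
      exact (hc δ hδ).le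
    exact absurd this (not_le.2 hq0)
  obtain ⟨g, hgc, hg⟩ := dense hf2 hδ
  have gm : Measurable g := g.continuous.measurable
  have hs := ((small hvu g hgc).eventually (gt_mem_nhds hq0)).and (Ioo_mem_nhdsGT h0)
  refine ⟨_, hs, fun ε ⟨e1, e2⟩ η ⟨e3, e4⟩ => ?_⟩
  have m1 := fun ε => (meas_trunc hvl.continuous (hf.sub gm) ε a).aestronglyMeasurable (μ := volume)
  have m2 := fun ε => (meas_hilbert hvl hvu g ε).aestronglyMeasurable (μ := volume)
  have b1 : ∀ ε, 0 < ε → eLpNorm (truncHilbert v ε a (f - g)) 2 volume ≤ q := fun ε hε =>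
    (unif_meas hvl hvu hB hε ha (hf.sub gm) (hf2.sub (g.memLp 2 volume))).trans
      (le_trans (by gcongr) hd)
  have h1 : truncHilbert v ε a f - truncHilbert v η a f =ᵐ[volume]
      (truncHilbert v ε a (f - g) - truncHilbert v η a (f - g)) +
        (hilbert v η g - hilbert v ε g) := by
    filter_upwards [trunc_sub hvl hvu e2.1 ha hf hf2 gm (g.memLp 2 volume),
      trunc_sub hvl hvu e4.1 ha hf hf2 gm (g.memLp 2 volume)] with x h1 h2
    rw [trunc_schwartz g e2.1 e2.2.le] at h1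
    rw [trunc_schwartz g e4.1 e4.2.le] at h2
    simp only [Pi.add_apply, Pi.sub_apply] at h1 h2 ⊢
    rw [h1, h2]
    ring
  rw [eLpNorm_congr_ae h1]
  refine lt_of_le_of_lt ((eLpNorm_add_le ((m1 ε).sub (m1 η)) ((m2 η).sub (m2 ε)) one_le_two).trans
    (add_le_add ((eLpNorm_sub_le (m1 ε) (m1 η) one_le_two).trans
      (add_le_add (b1 ε e2.1) (b1 η e4.1)))
      ((eLpNorm_sub_le (m2 η) (m2 ε) one_le_two).trans (add_le_add e3.le e1.le)))) hq

theorem conv_meas (hvl : LipschitzWith 1 v) (hvu : ∀ x, ‖v x‖ = 1) (hB : SB v B) {a : ℝ}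
    (h0 : 0 < a) (ha : a ≤ 1) {f : Plane → ℂ} (hf : Measurable f) (hf2 : MemLp f 2 volume) :
    ∃ g : Plane → ℂ, MemLp g 2 volume ∧ eLpNorm g 2 volume ≤ 2 * B * eLpNorm f 2 volume ∧
      Tendsto (fun ε => eLpNorm (truncHilbert v ε a f - g) 2 volume) (𝓝[>] 0) (𝓝 0) := by
  classical
  have hm : ∀ ε, 0 < ε → MemLp (truncHilbert v ε a f) 2 volume := fun ε hε =>
    ⟨(meas_trunc hvl.continuous hf ε a).aestronglyMeasurable,
      (unif_meas hvl hvu hB hε ha hf hf2).trans_lt (ENNReal.mul_lt_top (by finiteness) hf2.2)⟩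
  obtain ⟨F, hF⟩ : ∃ F : ℝ → Lp ℂ 2 (volume : Measure Plane),
    F = fun ε => if h : 0 < ε then (hm ε h).toLp _ else 0 := ⟨_, rfl⟩
  have hF' : ∀ ε, 0 < ε → F ε =ᵐ[volume] truncHilbert v ε a f := fun ε hε => by
    rw [hF]
    simp only [dif_pos hε]
    exact MemLp.coeFn_toLp _
  have hC : Cauchy (map F (𝓝[>] 0)) := by
    refine EMetric.cauchy_iff.2 ⟨map_neBot.ne, fun r hr => ?_⟩
    obtain ⟨s, hs, h⟩ := cauchy hvl hvu hB h0 ha hf hf2 hr
    refine ⟨_, image_mem_map (inter_mem hs self_mem_nhdsWithin), ?_⟩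
    rintro _ ⟨ε, ⟨e1, e2⟩, rfl⟩ _ ⟨η, ⟨e3, e4⟩, rfl⟩
    rw [Lp.edist_def, eLpNorm_congr_ae ((hF' ε e2).sub (hF' η e4))]
    exact h ε e1 η e3
  obtain ⟨g, hg⟩ := cauchy_map_iff_exists_tendsto.1 hC
  rw [Lp.tendsto_Lp_iff_tendsto_eLpNorm'] at hg
  have hg' : Tendsto (fun ε => eLpNorm (truncHilbert v ε a f - ⇑g) 2 volume) (𝓝[>] 0) (𝓝 0) :=
    hg.congr' (eventually_nhdsWithin_of_forall fun ε hε =>
      eLpNorm_congr_ae ((hF' ε hε).sub EventuallyEq.rfl))
  refine ⟨g, Lp.memLp g, ?_, hg'⟩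
  have h1 := hg'.const_add (2 * B * eLpNorm f 2 volume)
  rw [add_zero] at h1
  refine ge_of_tendsto h1 (eventually_nhdsWithin_of_forall fun ε hε => ?_)
  have h2 : (g : Plane → ℂ) = truncHilbert v ε a f - (truncHilbert v ε a f - ⇑g) := by simp
  calc eLpNorm (g : Plane → ℂ) 2 volume
      = eLpNorm (truncHilbert v ε a f - (truncHilbert v ε a f - ⇑g)) 2 volume := by rw [← h2]
    _ ≤ _ := (eLpNorm_sub_le (hm ε hε).1 ((hm ε hε).1.sub (Lp.memLp g).1) one_le_two).trans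
        (add_le_add (unif_meas hvl hvu hB hε ha hf hf2) le_rfl)

/-- All square integrable functions. -/
theorem all_l2 (hvl : LipschitzWith 1 v) (hvu : ∀ x, ‖v x‖ = 1) (hB : SB v B) {a : ℝ}
    (h0 : 0 < a) (ha : a ≤ 1) {f : Plane → ℂ} (hf : MemLp f 2 volume) :
    (∀ ε : ℝ, 0 < ε → (∀ᵐ x : Plane, IntegrableOn (fun t : ℝ => f (x - t • v x) / (t : ℂ))
        {t : ℝ | ε < |t| ∧ |t| < a}) ∧ AEStronglyMeasurable (truncHilbert v ε a f) volume ∧
        eLpNorm (truncHilbert v ε a f) 2 volume ≤ 2 * B * eLpNorm f 2 volume) ∧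
      ∃ g : Plane → ℂ, MemLp g 2 volume ∧ eLpNorm g 2 volume ≤ 2 * B * eLpNorm f 2 volume ∧
        Tendsto (fun ε => eLpNorm (truncHilbert v ε a f - g) 2 volume) (𝓝[>] 0) (𝓝 0) := by
  have e := hf.1.aemeasurable.ae_eq_mk
  have hm := hf.1.aemeasurable.measurable_mk
  have h2 := (memLp_congr_ae e).1 hf
  have e1 : ∀ ε, truncHilbert v ε a f =ᵐ[volume] truncHilbert v ε a (hf.1.aemeasurable.mk f) :=
    fun ε => (ae_line hvl hvu e).mono fun x hx => integral_congr_ae (trunc_congr ha hx)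
  rw [eLpNorm_congr_ae e]
  refine ⟨fun ε hε => ⟨?_, ?_, ?_⟩, ?_⟩
  · filter_upwards [ae_line hvl hvu e, ae_int hvl hvu hε ha hm h2] with x h3 h4
    exact h4.congr (trunc_congr ha h3).symm
  · exact (meas_trunc hvl.continuous hm ε a).aestronglyMeasurable.congr (e1 ε).symm
  · rw [eLpNorm_congr_ae (e1 ε)]
    exact unif_meas hvl hvu hB hε ha hm h2
  · obtain ⟨g, g1, g2, g3⟩ := conv_meas hvl hvu hB h0 ha hm h2
    exact ⟨g, g1, g2, g3.congr fun ε => eLpNorm_congr_ae ((e1 ε).symm.sub EventuallyEq.rfl)⟩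

end Vale.Agent.N112
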