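import Vale.Agent.N112.Ext

/-!
# P112: odd kernels `ψ(|t|) / t` with `ψ` of bounded variation
-/

namespace Vale.Agent.N112

open Vale.Agent.P112 MeasureTheory Filter Topology Set
open scoped ENNReal NNReal

variable {v : Plane → Plane} {B : ℝ≥0}

theorem meas_two (hv : Continuous v) {f : Plane → ℂ} (hf : Measurable f) (ε : ℝ) :
    Measurable fun p : Plane × ℝ => (Iic (1 : ℝ)).indicator (fun a => truncHilbert v ε a f p.1) p.2 := by
  have h1 : MeasurableSet {q : (Plane × ℝ) × ℝ | ε < |q.2| ∧ |q.2| < q.1.2} :=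
    (measurableSet_lt measurable_const measurable_snd.abs).inter
      (measurableSet_lt measurable_snd.abs measurable_fst.snd)
  have h2 : Measurable fun q : (Plane × ℝ) × ℝ => f (q.1.1 - q.2 • v q.1.1) / (q.2 : ℂ) :=
    (meas_line hv hf).comp (measurable_fst.fst.prodMk measurable_snd)
  have h3 := (StronglyMeasurable.integral_prod_right' (ν := (volume : Measure ℝ))
    (h2.indicator h1).stronglyMeasurable).measurable
  have h4 : Measurable fun p : Plane × ℝ => truncHilbert v ε p.2 f p.1 := by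
    convert h3 using 2 with p
    rw [truncHilbert, ← integral_indicator (measurableSet_shell ε p.2)]
    rfl
  exact h4.indicator (s := {p : Plane × ℝ | p.2 ∈ Iic (1 : ℝ)}) (measurable_snd measurableSet_Iic)

theorem fubini {k φ : ℝ → ℂ} {μ : Measure ℝ} [SFinite μ] {ε : ℝ}
    (hk : IntegrableOn k {t : ℝ | ε < |t| ∧ |t| < 1}) (hφ : Integrable φ μ) :
    ∫ t in {t : ℝ | ε < |t| ∧ |t| < 1}, k t * ∫ a in Ioc |t| 1, φ a ∂μ =
      ∫ a, φ a * (Iic (1 : ℝ)).indicator (fun a => ∫ t in {t : ℝ | ε < |t| ∧ |t| < a}, k t) a ∂μ := by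
  have h1 : MeasurableSet {p : ℝ × ℝ | |p.1| < p.2 ∧ p.2 ≤ 1} :=
    (measurableSet_lt measurable_fst.abs measurable_snd).inter
      (measurableSet_le measurable_snd measurable_const)
  have h2 := integral_integral_swap (f := fun t a =>
    {p : ℝ × ℝ | |p.1| < p.2 ∧ p.2 ≤ 1}.indicator (fun p => k p.1 * φ p.2) (t, a))
    ((Integrable.mul_prod hk hφ).indicator h1)
  refine Eq.trans (integral_congr_ae (Eventually.of_forall fun t => ?_))
    (h2.trans (integral_congr_ae (Eventually.of_forall fun a => ?_)))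
  · dsimp only
    rw [← integral_const_mul, ← integral_indicator measurableSet_Ioc]
    rfl
  · dsimp only
    by_cases ha : a ≤ 1
    · have h3 : {t : ℝ | ε < |t| ∧ |t| < a} = {t : ℝ | ε < |t| ∧ |t| < 1} ∩ {t : ℝ | |t| < a} :=
        Set.ext fun t => ⟨fun h => ⟨⟨h.1, h.2.trans_le ha⟩, h.2⟩, fun h => ⟨h.1.1, h.2⟩⟩
      rw [indicator_of_mem (show a ∈ Iic (1 : ℝ) from ha), h3,
        ← setIntegral_indicator (measurableSet_ball0 a), ← integral_const_mul]
      refine integral_congr_ae (Eventually.of_forall fun t => ?_)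
      by_cases ht : |t| < a <;> simp [ht, ha, mul_comm]
    · simp [ha]

theorem ker_int {k φ : ℝ → ℂ} {μ : Measure ℝ} [SFinite μ] {ε : ℝ}
    (hk : IntegrableOn k {t : ℝ | ε < |t| ∧ |t| < 1}) (hφ : Integrable φ μ) :
    IntegrableOn (fun t => k t * ∫ a in Ioc |t| 1, φ a ∂μ) {t : ℝ | ε < |t| ∧ |t| < 1} := by
  have h1 : MeasurableSet {p : ℝ × ℝ | |p.1| < p.2 ∧ p.2 ≤ 1} :=
    (measurableSet_lt measurable_fst.abs measurable_snd).inter
      (measurableSet_le measurable_snd measurable_const)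
  refine ((Integrable.mul_prod hk hφ).indicator h1).integral_prod_left.congr
    (Eventually.of_forall fun t => ?_)
  dsimp only
  rw [← integral_const_mul, ← integral_indicator measurableSet_Ioc]
  rfl

theorem ker_meas (hvl : LipschitzWith 1 v) (hvu : ∀ x, ‖v x‖ = 1) (hB : SB v B) {ε : ℝ}
    (hε : 0 < ε) {φ : ℝ → ℂ} {μ : Measure ℝ} [SFinite μ] (hφ : Measurable φ)
    (hφ1 : Integrable φ μ) {f : Plane → ℂ} (hf : Measurable f) (hf2 : MemLp f 2 volume) :
    eLpNorm (fun x => ∫ t in {t : ℝ | ε < |t| ∧ |t| < 1},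
      f (x - t • v x) / (t : ℂ) * ∫ a in Ioc |t| 1, φ a ∂μ) 2 volume ≤
      2 * B * (∫⁻ a, ‖φ a‖ₑ ∂μ) * eLpNorm f 2 volume := by
  have hm := meas_two hvl.continuous hf ε
  have hm2 : Measurable fun p : Plane × ℝ => ‖φ p.2‖ₑ *
      ‖(Iic (1 : ℝ)).indicator (fun a => truncHilbert v ε a f p.1) p.2‖ₑ ^ 2 :=
    (hφ.enorm.comp measurable_snd).mul (hm.enorm.pow_const 2)
  refine eLp_le ?_
  calc l2sq _ ≤ ∫⁻ x, (∫⁻ a, ‖φ a‖ₑ ∂μ) * ∫⁻ a, ‖φ a‖ₑ *
        ‖(Iic (1 : ℝ)).indicator (fun a => truncHilbert v ε a f x) a‖ₑ ^ 2 ∂μ := by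
        refine lintegral_mono_ae ?_
        filter_upwards [ae_int hvl hvu hε le_rfl hf hf2] with x hx
        rw [fubini hx hφ1]
        refine le_trans (pow_le_pow_left' ?_ 2) (avg_cs μ _ _ hφ.enorm
          (hm.comp measurable_prodMk_left).enorm)
        refine (enorm_integral_le_lintegral_enorm _).trans (le_of_eq ?_)
        exact lintegral_congr fun a => enorm_mul _ _
    _ = (∫⁻ a, ‖φ a‖ₑ ∂μ) * ∫⁻ a, ∫⁻ x, ‖φ a‖ₑ *
        ‖(Iic (1 : ℝ)).indicator (fun a => truncHilbert v ε a f x) a‖ₑ ^ 2 ∂volume ∂μ := by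
        rw [lintegral_const_mul _ hm2.lintegral_prod_right',
          lintegral_lintegral_swap hm2.aemeasurable]
    _ ≤ (∫⁻ a, ‖φ a‖ₑ ∂μ) * ∫⁻ a, ‖φ a‖ₑ * ((2 * B) ^ 2 * l2sq f) ∂μ := by
        refine mul_le_mul_right (lintegral_mono fun a => ?_) _
        dsimp only
        rw [lintegral_const_mul' _ _ enorm_ne_top]
        refine mul_le_mul_right ?_ _
        by_cases ha : a ≤ 1
        · simp only [indicator_of_mem (show a ∈ Iic (1 : ℝ) from ha)]
          have := pow_le_pow_left' (unif_meas hvl hvu hB hε ha hf hf2) 2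
          rwa [mul_pow, sq_eLp, sq_eLp] at this
        · simp [ha]
    _ = _ := by
        rw [lintegral_mul_const _ hφ.enorm]
        ring

theorem ker (hvl : LipschitzWith 1 v) (hvu : ∀ x, ‖v x‖ = 1) (hB : SB v B) {ε : ℝ}
    (hε : 0 < ε) {φ : ℝ → ℂ} {μ : Measure ℝ} [SFinite μ]
    (hφ : Integrable φ μ) {f : Plane → ℂ} (hf : MemLp f 2 volume) :
    eLpNorm (fun x => ∫ t in {t : ℝ | ε < |t| ∧ |t| < 1},
      f (x - t • v x) / (t : ℂ) * ∫ a in Ioc |t| 1, φ a ∂μ) 2 volume ≤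
      2 * B * (∫⁻ a, ‖φ a‖ₑ ∂μ) * eLpNorm f 2 volume := by
  have e := hf.1.aemeasurable.ae_eq_mk
  have e' := hφ.1.aemeasurable.ae_eq_mk
  have h := ker_meas hvl hvu hB hε hφ.1.aemeasurable.measurable_mk (hφ.congr e')
    hf.1.aemeasurable.measurable_mk ((memLp_congr_ae e).1 hf)
  rw [eLpNorm_congr_ae e, lintegral_congr_ae (e'.mono fun a ha => congrArg enorm ha)]
  refine le_trans (le_of_eq (eLpNorm_congr_ae ?_)) h
  filter_upwards [ae_line hvl hvu e] with x hx
  refine integral_congr_ae ?_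
  filter_upwards [trunc_congr (ε := ε) le_rfl hx] with t ht
  rw [ht, integral_congr_ae (ae_restrict_of_ae e')]

end Vale.Agent.N112
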